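import Vale.Agent.P338.R2.H784.FpSpec
import Vale.Agent.P338.R2.H525.Fp.Prod

/-!
P338, stage 2: the digits of the packed data (for the specification `FpSpec`).
-/

namespace Vale.Agent.P338.R2.H525.Fd

open H778 (val bits slots conv spread)
open H784 (FD Fp)

/-- row length of the data rows -/
def T (E : FD) : ℕ := E.R' + E.U

/-- digits of one data row -/
def rowDigits (E : FD) (v : ℕ → ℕ → ℕ) : List ℕ :=
  ((List.range E.G).flatMap fun g => ((List.range (E.P * E.U)).map fun y => v g y) ++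
    List.replicate (E.P * E.U) 0) ++ List.replicate (E.U + 1) 0

def blockDigits (E : FD) (v : ℕ → ℕ → ℕ → ℕ) : List ℕ :=
  ((List.range E.P).flatMap fun x => rowDigits E (v x)) ++
    List.replicate (E.P * E.R' + E.Q * E.R') 0

def packDigits (E : FD) (v : ℕ → ℕ → ℕ → ℕ → ℕ) : List ℕ :=
  (List.range E.K).flatMap fun k => blockDigits E (v k)

theorem length_group (E : FD) (v : ℕ → ℕ) :
    (((List.range (E.P * E.U)).map fun y => v y) ++ List.replicate (E.P * E.U) 0).length =
      2 * E.P * E.U := by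
  simp only [List.length_append, List.length_map, List.length_range, List.length_replicate]
  ring

theorem length_rowDigits (E : FD) (v : ℕ → ℕ → ℕ) : (rowDigits E v).length = T E := by
  rw [rowDigits, List.length_append, length_flatMap_const _ (2 * E.P * E.U) _
    (fun g _ => length_group E (v g)), List.length_replicate, T, FD.R', FD.R]
  ring

theorem length_blockDigits (E : FD) (v : ℕ → ℕ → ℕ → ℕ) : (blockDigits E v).length = E.S1 := by
  rw [blockDigits, List.length_append, length_flatMap_const _ (T E) _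
    (fun x _ => length_rowDigits E (v x)), List.length_replicate, FD.S1, T]

theorem length_packDigits (E : FD) (v : ℕ → ℕ → ℕ → ℕ → ℕ) :
    (packDigits E v).length = E.K * E.S1 :=
  length_flatMap_const _ _ _ (fun k _ => length_blockDigits E (v k))

def dig1 (E : FD) (v : ℕ → ℕ → ℕ → ℕ → ℕ) (i : ℕ) : ℕ := (packDigits E v).getD i 0

theorem dig1_of_le (E : FD) (v : ℕ → ℕ → ℕ → ℕ → ℕ) (i : ℕ) (h : E.K * E.S1 ≤ i) :
    dig1 E v i = 0 := getD_of_le _ _ _ (by rw [length_packDigits]; exact h)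

theorem dig1_block (E : FD) (v : ℕ → ℕ → ℕ → ℕ → ℕ) (k j : ℕ) (hk : k < E.K) (hj : j < E.S1) :
    dig1 E v (k * E.S1 + j) = (blockDigits E (v k)).getD j 0 :=
  getD_flatMap_range _ _ _ _ (fun k _ => length_blockDigits E (v k)) _ _ hk hj

theorem blockDigits_pad (E : FD) (v : ℕ → ℕ → ℕ → ℕ) (j : ℕ) (hj : E.P * T E ≤ j) :
    (blockDigits E v).getD j 0 = 0 := by
  have h1 := length_flatMap_const E.P (T E) _ (fun x _ => length_rowDigits E (v x))
  rw [blockDigits, getD_append_right' _ _ _ _ (by rw [h1]; exact hj), getD_replicate']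

theorem blockDigits_row (E : FD) (v : ℕ → ℕ → ℕ → ℕ) (x o : ℕ) (hx : x < E.P) (ho : o < T E) :
    (blockDigits E v).getD (x * T E + o) 0 = (rowDigits E (v x)).getD o 0 := by
  have h1 := length_flatMap_const E.P (T E) _ (fun x _ => length_rowDigits E (v x))
  rw [blockDigits, getD_append_left', getD_flatMap_range _ _ _ _
    (fun x _ => length_rowDigits E (v x)) _ _ hx ho]
  rw [h1]
  calc x * T E + o < x * T E + T E := by omega
    _ = (x + 1) * T E := by ring
    _ ≤ E.P * T E := Nat.mul_le_mul_right _ hx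

theorem rowDigits_group (E : FD) (v : ℕ → ℕ → ℕ) (g y : ℕ) (hg : g < E.G)
    (hy : y < 2 * E.P * E.U) :
    (rowDigits E v).getD (g * (2 * E.P * E.U) + y) 0 = if y < E.P * E.U then v g y else 0 := by
  have h1 := length_flatMap_const E.G (2 * E.P * E.U) _ (fun g _ => length_group E (v g))
  rw [rowDigits, getD_append_left', getD_flatMap_range _ _ _ _
    (fun g _ => length_group E (v g)) _ _ hg hy]
  · by_cases h : y < E.P * E.U
    · rw [if_pos h, getD_append_left' _ _ _ _ (by simpa using h), getD_map_range _ _ _ _ h]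
    · rw [if_neg h, getD_append_right' _ _ _ _ (by simpa using h), getD_replicate']
  · rw [h1]
    calc g * (2 * E.P * E.U) + y < g * (2 * E.P * E.U) + (2 * E.P * E.U) := by omega
      _ = (g + 1) * (2 * E.P * E.U) := by ring
      _ ≤ E.G * (2 * E.P * E.U) := Nat.mul_le_mul_right _ hg

theorem rowDigits_last (E : FD) (v : ℕ → ℕ → ℕ) (o : ℕ) (h : E.R ≤ o) :
    (rowDigits E v).getD o 0 = 0 := by
  have h1 := length_flatMap_const E.G (2 * E.P * E.U) _ (fun g _ => length_group E (v g))
  have h2 : E.R = E.G * (2 * E.P * E.U) := rfl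
  rw [rowDigits, getD_append_right' _ _ _ _ (by rw [h1, ← h2]; exact h), getD_replicate']

theorem P_pos (E : FD) : 0 < E.P := E.D.P_pos
theorem U_pos (E : FD) : 0 < E.U := by unfold FD.U; positivity
theorem c_pos (E : FD) : 0 < E.c := by unfold FD.c; positivity

/-- The sheared value. -/
def shear (E : FD) (v : ℕ → ℕ → ℕ → ℕ) (r g j : ℕ) : ℕ :=
  if r < E.P ∧ r * E.U ≤ j ∧ j < r * E.U + E.P * E.U then v r g (j - r * E.U) else 0

theorem pos_lt_R (E : FD) (g j : ℕ) (hg : g < E.G) (hj : j < 2 * E.P * E.U) :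
    g * (2 * E.P * E.U) + j < E.R := by
  unfold FD.R
  calc g * (2 * E.P * E.U) + j < g * (2 * E.P * E.U) + 2 * E.P * E.U := by omega
    _ = (g + 1) * (2 * E.P * E.U) := by ring
    _ ≤ E.G * (2 * E.P * E.U) := Nat.mul_le_mul_right _ hg

theorem blockDigits_shear (E : FD) (v : ℕ → ℕ → ℕ → ℕ) (r g j : ℕ)
    (hg : g < E.G) (hj : j < 2 * E.P * E.U) :
    (blockDigits E v).getD (r * E.R' + g * (2 * E.P * E.U) + j) 0 = shear E v r g j := by
  have hP := P_pos E
  have hU := U_pos E
  have hR' : E.R' = E.R + 1 := rfl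
  have hT : T E = E.R + 1 + E.U := rfl
  have hgR := pos_lt_R E g j hg hj
  have hPU : 2 * E.P * E.U = 2 * (E.P * E.U) := by ring
  have hPU0 : E.U ≤ E.P * E.U := Nat.le_mul_of_pos_left _ hP
  have hRge : 2 * (E.P * E.U) ≤ E.R := by
    have : (0 + 1) * (2 * E.P * E.U) ≤ E.G * (2 * E.P * E.U) := Nat.mul_le_mul_right _ (by omega)
    unfold FD.R
    rw [hPU] at this ⊢
    omega
  unfold shear
  rcases Nat.lt_or_ge E.P r with hrP | hrP
  · -- beyond
    rw [if_neg (by omega)]
    apply blockDigits_pad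
    have h1 : (E.P + 1) * E.R' ≤ r * E.R' := Nat.mul_le_mul_right _ hrP
    have e1 : (E.P + 1) * E.R' = E.P * E.R' + E.R' := by ring
    have e2 : E.P * T E = E.P * E.R' + E.P * E.U := by rw [T]; ring
    omega
  have hrU : r * E.U ≤ E.P * E.U := Nat.mul_le_mul_right _ hrP
  have eT : ∀ r, r * T E = r * E.R' + r * E.U := fun r => by rw [T]; ring
  rcases Nat.lt_or_ge j (r * E.U) with hcr | hcr
  · rw [if_neg (by omega)]
    rcases Nat.eq_zero_or_pos g with hg0 | hg0
    · -- previous row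
      subst hg0
      obtain ⟨r', rfl⟩ : ∃ r', r = r' + 1 := by
        refine ⟨r - 1, ?_⟩
        rcases Nat.eq_zero_or_pos r with h | h
        · subst h; simp at hcr
        · omega
      have e3 : (r' + 1) * E.U = r' * E.U + E.U := by ring
      have e4 : (r' + 1) * E.R' = r' * E.R' + E.R' := by ring
      have e1 : (r' + 1) * E.R' + 0 * (2 * E.P * E.U) + j =
          r' * T E + (E.R' + j - r' * E.U) := by
        rw [eT, e4]
        have : r' * E.U ≤ E.R' := by omega
        omega
      rw [e1, blockDigits_row _ _ _ _ (by omega) (by omega)]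
      rcases Nat.lt_or_ge (E.R' + j - r' * E.U) E.R with h0 | h0
      · obtain ⟨G', hG'⟩ : ∃ G', E.G = G' + 1 := ⟨E.G - 1, by omega⟩
        have e5 : E.R = G' * (2 * E.P * E.U) + 2 * E.P * E.U := by
          unfold FD.R
          rw [hG']
          ring
        have e2 : E.R' + j - r' * E.U =
            G' * (2 * E.P * E.U) + (2 * E.P * E.U + 1 + j - r' * E.U) := by
          omega
        rw [e2, rowDigits_group _ _ _ _ (by omega) (by omega), if_neg (by omega)]
      · exact rowDigits_last _ _ _ h0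
    · obtain ⟨g', rfl⟩ : ∃ g', g = g' + 1 := ⟨g - 1, by omega⟩
      have e3 : (g' + 1) * (2 * E.P * E.U) = g' * (2 * E.P * E.U) + 2 * E.P * E.U := by ring
      have e1 : r * E.R' + (g' + 1) * (2 * E.P * E.U) + j =
          r * T E + (g' * (2 * E.P * E.U) + (2 * E.P * E.U + j - r * E.U)) := by
        rw [eT, e3]
        omega
      rw [e1]
      rcases Nat.lt_or_ge r E.P with hr | hr
      · rw [blockDigits_row _ _ _ _ hr (by omega), rowDigits_group _ _ _ _ (by omega) (by omega),
          if_neg (by omega)]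
      · have : r = E.P := by omega
        subst this
        exact blockDigits_pad _ _ _ (Nat.le_add_right _ _)
  · rcases Nat.lt_or_ge r E.P with hr | hr
    · have e1 : r * E.R' + g * (2 * E.P * E.U) + j =
          r * T E + (g * (2 * E.P * E.U) + (j - r * E.U)) := by
        rw [eT]
        omega
      rw [e1, blockDigits_row _ _ _ _ hr (by omega), rowDigits_group _ _ _ _ hg (by omega)]
      by_cases h : j < r * E.U + E.P * E.U
      · rw [if_pos (by omega), if_pos (by omega)]
      · rw [if_neg (by omega), if_neg (by omega)]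
    · rw [if_neg (by omega)]
      apply blockDigits_pad
      have : r = E.P := by omega
      subst this
      rw [eT]
      omega

/-- the digits at sheared positions -/
theorem dig1_shear (E : FD) (v : ℕ → ℕ → ℕ → ℕ → ℕ) (k r g j : ℕ) (hk : k < E.K)
    (hr : r < E.P + E.Q) (hg : g < E.G) (hj : j < 2 * E.P * E.U) :
    dig1 E v (k * E.S1 + r * E.R' + (g * (2 * E.P * E.U) + j)) = shear E (v k) r g j := by
  have hgR := pos_lt_R E g j hg hj
  have hR' : E.R' = E.R + 1 := rfl
  have h1 : r * E.R' + E.R' ≤ E.P * E.R' + E.Q * E.R' := by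
    calc r * E.R' + E.R' = (r + 1) * E.R' := by ring
      _ ≤ (E.P + E.Q) * E.R' := Nat.mul_le_mul_right _ hr
      _ = _ := by ring
  have e : k * E.S1 + r * E.R' + (g * (2 * E.P * E.U) + j) =
      k * E.S1 + (r * E.R' + g * (2 * E.P * E.U) + j) := by ring
  rw [e, dig1_block E v k _ hk, blockDigits_shear E (v k) r g j hg hj]
  unfold FD.S1
  omega

/-- the digits before a block -/
theorem dig1_before (E : FD) (v : ℕ → ℕ → ℕ → ℕ → ℕ) (k j : ℕ) (hk : k < E.K) (hj : 0 < j)
    (hj' : j ≤ (E.P + E.Q) * E.R') (hjk : j ≤ k * E.S1) :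
    dig1 E v (k * E.S1 - j) = 0 := by
  obtain ⟨k', rfl⟩ : ∃ k', k = k' + 1 := by
    refine ⟨k - 1, ?_⟩
    rcases Nat.eq_zero_or_pos k with h | h
    · subst h; simp at hjk; omega
    · omega
  have hS : E.S1 = E.P * T E + (E.P * E.R' + E.Q * E.R') := rfl
  have hj2 : j ≤ E.P * E.R' + E.Q * E.R' := by
    rw [Nat.add_mul] at hj'
    exact hj'
  have e : (k' + 1) * E.S1 - j = k' * E.S1 + (E.S1 - j) := by
    have : (k' + 1) * E.S1 = k' * E.S1 + E.S1 := by ring
    omega
  rw [e, dig1_block E v k' _ (by omega) (by omega)]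
  apply blockDigits_pad
  omega

/-- the second digit list -/
def row2 (E : FD) (z : ℕ → ℕ → ℕ → ℕ) : List ℕ :=
  ((List.range E.G).flatMap fun g => (List.range (2 * E.P)).flatMap fun c =>
    (List.range E.U).map fun u => z g c u) ++ [0]

def block2 (E : FD) (z : ℕ → ℕ → ℕ → ℕ → ℕ) : List ℕ :=
  ((List.range E.Q).flatMap fun q => row2 E (z q)) ++
    List.replicate (E.P * (E.R' + E.U) + E.Q * E.R') 0

def digits2 (E : FD) (z : ℕ → ℕ → ℕ → ℕ → ℕ → ℕ) : List ℕ :=
  (List.range E.K).flatMap fun k => block2 E (z k)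

theorem length_col (E : FD) (z : ℕ → ℕ → ℕ) :
    ((List.range (2 * E.P)).flatMap fun c => (List.range E.U).map fun u => z c u).length =
      2 * E.P * E.U :=
  length_flatMap_const _ _ _ (fun c _ => by simp)

theorem length_row2 (E : FD) (z : ℕ → ℕ → ℕ → ℕ) : (row2 E z).length = E.R' := by
  rw [row2, List.length_append, length_flatMap_const _ (2 * E.P * E.U) _
    (fun g _ => length_col E (z g))]
  rfl

theorem length_block2 (E : FD) (z : ℕ → ℕ → ℕ → ℕ → ℕ) : (block2 E z).length = E.S2 := by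
  rw [block2, List.length_append, length_flatMap_const _ E.R' _ (fun q _ => length_row2 E (z q)),
    List.length_replicate]
  rfl

theorem length_digits2 (E : FD) (z : ℕ → ℕ → ℕ → ℕ → ℕ → ℕ) :
    (digits2 E z).length = E.K * E.S2 :=
  length_flatMap_const _ _ _ (fun k _ => length_block2 E (z k))

def dig2 (E : FD) (z : ℕ → ℕ → ℕ → ℕ → ℕ → ℕ) (i : ℕ) : ℕ := (digits2 E z).getD i 0

theorem dig2_of_le (E : FD) (z : ℕ → ℕ → ℕ → ℕ → ℕ → ℕ) (i : ℕ) (h : E.K * E.S2 ≤ i) :
    dig2 E z i = 0 := getD_of_le _ _ _ (by rw [length_digits2]; exact h)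

theorem dig2_block (E : FD) (z : ℕ → ℕ → ℕ → ℕ → ℕ → ℕ) (k j : ℕ) (hk : k < E.K)
    (hj : j < E.S2) : dig2 E z (k * E.S2 + j) = (block2 E (z k)).getD j 0 :=
  getD_flatMap_range _ _ _ _ (fun k _ => length_block2 E (z k)) _ _ hk hj

theorem block2_pad (E : FD) (z : ℕ → ℕ → ℕ → ℕ → ℕ) (j : ℕ) (hj : E.Q * E.R' ≤ j) :
    (block2 E z).getD j 0 = 0 := by
  have h1 := length_flatMap_const E.Q E.R' _ (fun q _ => length_row2 E (z q))
  rw [block2, getD_append_right' _ _ _ _ (by rw [h1]; exact hj), getD_replicate']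

theorem col_lt (E : FD) (c u : ℕ) (hc : c < 2 * E.P) (hu : u < E.U) :
    c * E.U + u < 2 * E.P * E.U := by
  calc c * E.U + u < c * E.U + E.U := by omega
    _ = (c + 1) * E.U := by ring
    _ ≤ 2 * E.P * E.U := Nat.mul_le_mul_right _ hc

theorem block2_row (E : FD) (z : ℕ → ℕ → ℕ → ℕ → ℕ) (r g c u : ℕ) (hg : g < E.G)
    (hc : c < 2 * E.P) (hu : u < E.U) :
    (block2 E z).getD (r * E.R' + (g * (2 * E.P * E.U) + (c * E.U + u))) 0 =
      if r < E.Q then z r g c u else 0 := by
  have hcu := col_lt E c u hc hu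
  have hm := pos_lt_R E g _ hg hcu
  have hR' : E.R' = E.R + 1 := rfl
  have h1 := length_flatMap_const E.Q E.R' _ (fun q _ => length_row2 E (z q))
  by_cases hr : r < E.Q
  · have h2 := length_flatMap_const E.G (2 * E.P * E.U) _ (fun g _ => length_col E (z r g))
    rw [if_pos hr, block2, getD_append_left', getD_flatMap_range _ _ _ _
      (fun q _ => length_row2 E (z q)) _ _ hr (by omega), row2, getD_append_left',
      getD_flatMap_range _ _ _ _ (fun g _ => length_col E (z r g)) _ _ hg hcu,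
      getD_flatMap_range _ _ _ _ (fun c _ => by simp) _ _ hc hu, getD_map_range _ _ _ _ hu]
    · rw [h2]
      exact hm
    · rw [h1]
      calc r * E.R' + (g * (2 * E.P * E.U) + (c * E.U + u)) < r * E.R' + E.R' := by omega
        _ = (r + 1) * E.R' := by ring
        _ ≤ E.Q * E.R' := Nat.mul_le_mul_right _ hr
  · rw [if_neg hr]
    apply block2_pad
    have : E.Q * E.R' ≤ r * E.R' := Nat.mul_le_mul_right _ (by omega)
    omega

theorem dig2_row (E : FD) (z : ℕ → ℕ → ℕ → ℕ → ℕ → ℕ) (k r g c u : ℕ) (hk : k < E.K)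
    (hr : r < E.P + E.Q) (hg : g < E.G) (hc : c < 2 * E.P) (hu : u < E.U) :
    dig2 E z (k * E.S2 + r * E.R' + (g * (2 * E.P * E.U) + (c * E.U + u))) =
      if r < E.Q then z k r g c u else 0 := by
  have hm := pos_lt_R E g _ hg (col_lt E c u hc hu)
  have hR' : E.R' = E.R + 1 := rfl
  have h1 : r * E.R' + E.R' ≤ E.P * E.R' + E.Q * E.R' := by
    calc r * E.R' + E.R' = (r + 1) * E.R' := by ring
      _ ≤ (E.P + E.Q) * E.R' := Nat.mul_le_mul_right _ hr
      _ = _ := by ring
  have h2 : E.P * (E.R' + E.U) = E.P * E.R' + E.P * E.U := by ring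
  rw [add_assoc, dig2_block E z k _ hk, block2_row E (z k) r g c u hg hc hu]
  unfold FD.S2
  omega

theorem dig2_before (E : FD) (z : ℕ → ℕ → ℕ → ℕ → ℕ → ℕ) (k j : ℕ) (hk : k < E.K) (hj : 0 < j)
    (hj' : j ≤ (E.P + E.Q) * E.R') (hjk : j ≤ k * E.S2) :
    dig2 E z (k * E.S2 - j) = 0 := by
  obtain ⟨k', rfl⟩ : ∃ k', k = k' + 1 := by
    refine ⟨k - 1, ?_⟩
    rcases Nat.eq_zero_or_pos k with h | h
    · subst h; simp at hjk; omega
    · omega
  have hS : E.S2 = E.Q * E.R' + (E.P * (E.R' + E.U) + E.Q * E.R') := rfl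
  have hj2 : j ≤ E.P * E.R' + E.Q * E.R' := by
    rw [Nat.add_mul] at hj'
    exact hj'
  have h2 : E.P * (E.R' + E.U) = E.P * E.R' + E.P * E.U := by ring
  have e : (k' + 1) * E.S2 - j = k' * E.S2 + (E.S2 - j) := by
    have : (k' + 1) * E.S2 = k' * E.S2 + E.S2 := by ring
    omega
  rw [e, dig2_block E z k' _ (by omega) (by omega)]
  apply block2_pad
  omega

end Vale.Agent.P338.R2.H525.Fd
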